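import Vale.Agent.P011.D4W.Fin

open Module NumberField

namespace Vale.Agent.Results.P011.GTrialitarianAll

open Vale.Agent.P011.D4 Vale.Agent.P011.D4T Vale.Agent.P011.D4I Vale.Agent.P011.D4H

/-- The Margulis-Platonov conjecture for anisotropic trialitarian groups of noncyclic cubic
extensions of number fields, for arbitrary Tits classes.

Let `L / k` be a noncyclic cubic extension of number fields, `E` the compositum of the Galois
closure of `L` and of `k(α)`, of degree twelve over `k`, where `α ^ 2 = a`, let `ρ`, `σ`, `ι` be
automorphisms of `E / k` of orders three, two, two, where `σ` is central, `ι ρ = ρ² ι`,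
`ρ(α) = ι(α) = α`, `σ(α) = -α`, and `L` is the fixed field of `σ` and `ρ ι`, let `q` be an element
of `L` with `q ρ(q) ρ²(q) = 1`, and let `C = (a, b, c)` be an octonion division algebra over `k`,
definite at the real places where `a` is negative, where `q` is positive at the real places of `L`
over one of these places. Then the group `TI ρ σ ι α q a b c` of the trialitarian group of `L`, `C`
and of the Tits class `(a, q)` has no proper subgroup of finite index. -/
theorem result {k L E : Type} [Field k] [NumberField k] [Field L] [NumberField L] [Field E]
    [Algebra k L] [Algebra k E] [Algebra L E] [IsScalarTower k L E] (ρ σ ι : E ≃ₐ[k] E) (α : E)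
    (a b c : kˣ) (q : Lˣ) (H : IsDataIR ρ σ ι α a b c q) :
    NoIndex (TI ρ σ ι α (algebraMap L E (q : L)) a b c) :=
  Vale.Agent.P011.D4W.ti_noIndex H

end Vale.Agent.Results.P011.GTrialitarianAll
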