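import Vale.Agent.P011.E6W.H7.Fin2
import Vale.Agent.P011.E6W.H7.TiAll
import Vale.Agent.P011.E6W.H183.SixW
import Vale.Agent.P011.E6W.H196.KTh

open Module NumberField

namespace Vale.Agent.Results.P011.HTypeE6All

open Vale.Agent.P011.D4 Vale.Agent.P011.E6 Vale.Agent.P011.E6H

/-- The Margulis-Platonov conjecture for the outer groups of type `E₆` with nontrivial Tits class
over number fields.

Let `E/k` be a cyclic extension of number fields of degree six, with automorphisms `ρ` and `σ` of
orders three and two, let `K = k(√kap)` be the fixed field of `ρ`, let `lam` in `K` be no norm from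
`E`, let `g` be weights which define a unitary involution of the cyclic algebra `(E/K, ρ, lam)`,
and let `C = (a, b, c)` be any division octonion algebra over `k`. Let `G` be the group of the
linear bijections of the hermitian matrices of degree three over `C ⊗ E` that preserve the cubic
norm and the hermitian form and commute with the semilinear map `ph ρ lam`. Then every subgroup of
finite index of `G` is open in the archimedean topology. -/
theorem result {k E : Type} [Field k] [NumberField k] [Field E] [Algebra k E]
    (ρ σ : E ≃ₐ[k] E) {kap : kˣ} (hS : IsSextic ρ σ kap) {a b c : kˣ} (hC : Oct.Division a b c)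
    (lam : Eˣ) (g : Fin 3 → Eˣ) (hg : IsForm ρ σ lam g) :
    OpenAt (fun _ => True) (GHer σ g a b c ⊓ GPh ρ lam a b c) := by
  have : FiniteDimensional k E := Module.finite_of_finrank_pos (by rw [hS.h6]; norm_num)
  have : NumberField E := NumberField.of_module_finite k E
  exact Vale.Agent.P011.E6W.H7.main
    (Vale.Agent.P011.E6W.H196.ktop _ _ fun L _ _ _ => Vale.Agent.P011.E6W.H7.tiAll _ L)
    (fun W hT => Vale.Agent.P011.E6W.H183.sixAt W hT) hS hC hg

end Vale.Agent.Results.P011.HTypeE6All
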