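import Vale.Agent.P011.Tpl.H359.Ind
import Vale.Agent.P011.Tpl.H359.QGen
import Vale.Agent.P011.Tpl.H359.Base6
import Vale.Agent.P011.Tpl.H359.SgdOf
import Vale.Agent.P011.Tpl.H541.Step
import Vale.Agent.P011.One.SettingOf

open Module Topology NumberField

namespace Vale.Agent.Results.P011.HUnitaryThreePow

open Vale.Agent.P011.One Vale.Agent.P011.Tpl.H359

/-- The Margulis-Platonov conjecture for `G(k) = SU_1(D, *)`, `D` a central division algebra of
degree `n = 3 * 2 ^ e`, `e ≥ 1`, over a number field `K` with an involution `*` of the second kind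
with fixed field `k`, such that `G(k_v)` is at no real place `v` of `k` isomorphic to
`SU(n - 1, 1)` and the number of elements of the residue field of a finite place of `k` at which
`G` is anisotropic is never `1` modulo `3`: the diagonal map `δ` from `G(k)` to the product `H_A`
of the groups `G(k_v)` over the finite places `v` of `k` at which `G` is anisotropic has dense
image, and every subgroup `N` of finite index is the preimage of an open subgroup `W`, which is
normal if `N` is. -/
theorem result {k K D F : Type} [Field k] [NumberField k] [Field K] [NumberField K] [Algebra k K]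
    [StarRing K] [DivisionRing D] [StarRing D] [Algebra k D] [Algebra K D] [IsScalarTower k K D]
    [StarModule K D] [FiniteDimensional K D] [Algebra.IsCentral K D] [Field F] [Algebra K F]
    (hfix : ∀ x : K, star x = x ↔ x ∈ Set.range (algebraMap k K)) (hK : ∃ x : K, star x ≠ x)
    {n e : ℕ} (he : 1 ≤ e) (hn : n = 3 * 2 ^ e) (hdeg : finrank K D = n ^ 2)
    (hR : ∀ (σ : K →+* ℂ) (g : D →+* Matrix (Fin n) (Fin n) ℂ) (i₀ : Fin n),
      (∀ z, σ (star z) = star (σ z)) →
      (∀ x, g (algebraMap K D x) = Matrix.scalar (Fin n) (σ x)) →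
      ¬ ∀ x, g (star x) = Matrix.diagonal (fun i => if i = i₀ then (-1 : ℂ) else 1) *
        (g x).conjTranspose * Matrix.diagonal (fun i => if i = i₀ then (-1 : ℂ) else 1))
    (hA : ∀ v ∈ Adiv k K D, Nat.card (𝓞 k ⧸ v.asIdeal) % 3 ≠ 1)
    (f : D →ₐ[K] Matrix (Fin n) (Fin n) F) :
    ∃ δ : SUD f →* HA D n (Adiv k K D), IsDiagonal δ ∧ DenseRange δ ∧
      ∀ N : Subgroup (SUD f), N.index ≠ 0 → IsOpenPreimage δ N := by
  obtain ⟨d, s, hS⟩ := exists_setting (D := D) hfix hK
  have hsg : Vale.Agent.P011.Tpl.Sgd K D n := sgd_of hR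
  obtain ⟨e', rfl⟩ : ∃ e', e = e' + 1 := ⟨e - 1, by omega⟩
  have hn' : n = 2 * (3 * 2 ^ e') := by
    rw [hn, pow_succ]
    ring
  have h1 : 1 ≤ 2 ^ e' := Nat.one_le_two_pow
  have h3 : ∀ r : ℕ, 3 ≤ 3 * 2 ^ r := fun r => by
    have : 1 ≤ 2 ^ r := Nat.one_le_two_pow
    omega
  subst hn'
  exact q1_gen (by omega) hS (star_fix hfix) hdeg
    (mp_ind (P := fun q => q % 3 ≠ 1) (l₀ := 3) (by norm_num)
      (fun k K D _ _ _ _ _ _ _ _ _ _ _ d s hS hdeg hsg hG => mp_six hS hdeg hsg hG)
      (fun r => Vale.Agent.P011.Tpl.H541.stepT (h3 r))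
      (fun r => Vale.Agent.P011.Tpl.H541.stepS (h3 r)) e' k K D d s hS hdeg hsg hA) f

end Vale.Agent.Results.P011.HUnitaryThreePow
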